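import Vale.Agent.P034F.Base

/-!
# Skeleton of the proof (statements fixed; each piece goes to its own file with exactly this statement)
Uses helper4's local potential (no history needed).
-/
namespace TAL
open Finset

variable {X : Type} [Fintype X] [DecidableEq X]

/-- [EXC] greedy extraction of exceptional ORBITS: while some orbit `O` (under `Γ`) of a nonempty `Z`
has `∑_{Y ⊇ some Z' ∈ O} (kill G a) Y > θ q^|Z| |O|` put `O` into `G`.  Afterwards, for an invariant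
relation `R` with at most `M` sets `Z` per `Y`:
`∑_{Y : R Y Z} a Y = (1/|O|) ∑_Y a Y #{Z' ∈ O : R Y Z'} ≤ (M/|O|) ∑_{Y ⊇ some Z' ∈ O} a Y`.
(For `Z = ∅`: `R Y ∅` implies `1 ≤ M`, and `tot a ≤ θ`.) -/
theorem exc (Γ : Subgroup (Equiv.Perm X)) (q θ : ℝ) (hq : 0 < q) (hθ : 0 < θ) (a : Finset X → ℝ)
    (ha : ∀ Y, 0 ≤ a Y) (hinv : InvW Γ a) (htot : tot a ≤ θ) :
    ∃ G : Finset (Finset X), InvF Γ G ∧ cost q G * θ ≤ tot a ∧ Spr Γ (kill G a) θ q := by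
  sorry

open Classical in
/-- [DEL] canonical deletion process on a finite bipartite graph, simultaneous rounds:
`A_0 = A`, `C_0 = C`, `A_(t+1) = {y ∈ A_t : M ≤ #{z ∈ C_t : R y z}}`,
`C_(t+1) = {z ∈ C_t : θ ≤ a{y ∈ A_(t+1) : R y z}}`; `t1 y z` : `y` dies while `z` alive
(`y ∈ A_t \ A_(t+1)`, `z ∈ C_t`); type 2 = neither type 1 nor core; core = both survive. -/
theorem deletion {α β : Type} (A : Finset α) (C : Finset β) (R : α → β → Prop)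
    (a : α → ℝ) (ha : ∀ y, 0 ≤ a y) (M θ : ℝ) (hM : 0 ≤ M) (hθ : 0 ≤ θ) :
    ∃ (A0 : Finset α) (C0 : Finset β) (t1 : α → β → Prop), A0 ⊆ A ∧ C0 ⊆ C ∧
      (∀ y ∈ A0, M ≤ ((C0.filter (fun z => R y z)).card : ℝ)) ∧
      (∀ z ∈ C0, θ ≤ ∑ y ∈ A0.filter (fun y => R y z), a y) ∧
      (∀ y, ((C.filter (fun z => t1 y z)).card : ℝ) ≤ M) ∧
      (∀ z, ∑ y ∈ A.filter (fun y => z ∈ C ∧ R y z ∧ ¬ t1 y z ∧ ¬ (y ∈ A0 ∧ z ∈ C0)), a y ≤ θ) ∧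
      (∀ y z, t1 y z → y ∈ A ∧ z ∈ C ∧ R y z) ∧
      (∀ (f : Equiv.Perm α) (g : Equiv.Perm β), (∀ y, f y ∈ A ↔ y ∈ A) → (∀ z, g z ∈ C ↔ z ∈ C) →
        (∀ y z, R (f y) (g z) ↔ R y z) → (∀ y, a (f y) = a y) →
        (∀ y, f y ∈ A0 ↔ y ∈ A0) ∧ (∀ z, g z ∈ C0 ↔ z ∈ C0) ∧ (∀ y z, t1 (f y) (g z) ↔ t1 y z)) := by
  sorry

open Classical in
/-- [CLS] classes of pairs `(Y,Y')` with `|Y ∩ Y'| = x`.  `C j` = no loss, `D j` = core of level `j`.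
Levels `n = u` (`nu B u ^ x ≥ 2^(u x) ≥ C(u,x)`).  `f(Y,Z)` = last level where `(Y,Z)` is alive
(`R_u` = all, `R_j` = type 1 of the process `j` run on `R_(j+1)` with `M = (nu B j)^x`,
`θ_j = θ (B^2 q)^x / (nu B (j+1))^x`); `C (j+1) Y Y'`: `Y` type 2 in process `j`, `f(Y',Z) ≤ j+1`;
`C 0`: `f(Y,Z) = f(Y',Z) = 0`; `D j`: `Y` core in process `j` (`Z ∈ Zs j`), `f(Y',Z) ≤ j+1`.
Masses: `C (j+1)`: `tot a ν_(j+1)^x θ_j`; `C 0`: `tot a ν_0^x (ν_0^x θ q^x)` (Spr);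
`D j`: `tot a ν_(j+1)^x (ν_(j+1)^x θ q^x)` (Spr). -/
theorem classes (Γ : Subgroup (Equiv.Perm X)) (B q θ σ : ℝ) (u x : ℕ) (a : Finset X → ℝ)
    (hB : 2 ≤ B) (hq : 0 < q)
    (hθ : 0 < θ) (hσ : 0 < σ) (hσ1 : σ ≤ 1) (ha : ∀ Y, 0 ≤ a Y) (hcard : ∀ Y, a Y ≠ 0 → Y.card = u)
    (hinv : InvW Γ a) (hspr : Spr Γ a θ q) (htot : tot a ≤ σ * θ) (hxu : x ≤ u) :
    ∃ (C D : ℕ → Finset X → Finset X → Prop) (Ys Zs : ℕ → Finset (Finset X)),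
      (∀ Y Y', a Y ≠ 0 → a Y' ≠ 0 → (Y ∩ Y').card = x →
        (∃ j ≤ u, C j Y Y' ∨ C j Y' Y) ∨ (∃ j < u, D j Y Y' ∨ D j Y' Y)) ∧
      (∀ j Y Y', C j Y Y' → (Y ∩ Y').card = x) ∧
      (∀ j Y Y', D j Y Y' → (Y ∩ Y').card = x ∧ Y ∈ Ys j) ∧
      (∀ j, pm a (C j) ≤ θ ^ 2 * (B ^ 2 * q) ^ x) ∧
      (∀ j, pm a (D j) ≤ θ ^ 2 * (B ^ 2 * q) ^ x * (nu B j) ^ (4 * x)) ∧
      (∀ j, ∀ Y ∈ Ys j, (nu B j) ^ x ≤ (((Zs j).filter (fun Z => Z ⊆ Y)).card : ℝ)) ∧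
      (∀ j, ∀ Z ∈ Zs j, Z.card = x) ∧
      (∀ j, ((Zs j).card : ℝ) * (B ^ 2 * q) ^ x ≤ σ * (nu B (j + 1)) ^ (2 * x)) ∧
      (∀ j, InvF Γ (Zs j)) ∧ (∀ j, InvR Γ (C j)) ∧ (∀ j, InvR Γ (D j)) := by
  sorry

/-- [PRM] promise lemma. -/
theorem promise (u x : ℕ) (ν : ℝ) (μ : Finset X → ℝ) (Zs : Finset (Finset X)) (hx : 1 ≤ x)
    (hν : Real.exp 100 ≤ ν) (h0 : ∀ Y, 0 ≤ μ Y) (hc : ∀ Y, μ Y ≠ 0 → Y.card = u) (h1 : tot μ = 1)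
    (hZ : ∀ Z ∈ Zs, Z.card = x)
    (hcount : ∀ Y, μ Y ≠ 0 → ν ^ x ≤ ((Zs.filter (fun Z => Z ⊆ Y)).card : ℝ))
    (hZs : (Zs.card : ℝ) ≤ ν ^ (8 * x)) :
    ∃ S : Finset (Finset X), (∀ Y ∈ S, μ Y ≠ 0) ∧
      1 ≤ (∑ Y ∈ S, μ Y) * (ν ^ (7 * x) * (4 * (u : ℝ))) ∧
      9 * (x : ℝ) * Real.log ν ≤ Real.exp (-(Real.log ν) / 4) * QQ S := by
  sorry

open Classical in
/-- [TST] the step for a fixed set `T` (extremal conditioning). -/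
theorem tstep (B : ℝ) (hB : Real.exp 100 ≤ B) (u : ℕ) (hu : 1 ≤ u) (μ : Finset X → ℝ) (T : Finset X)
    (hμ : IsP T u μ)
    (C D : ℕ → ℕ → Finset X → Finset X → Prop) (Ys Zs : ℕ → ℕ → Finset (Finset X))
    (hcov : ∀ x ≤ u, ∀ Y Y', μ Y ≠ 0 → μ Y' ≠ 0 → (Y ∩ Y').card = x →
        (∃ j ≤ u, C x j Y Y' ∨ C x j Y' Y) ∨ (∃ j < u, D x j Y Y' ∨ D x j Y' Y))
    (hD : ∀ x j Y Y', D x j Y Y' → Y ∈ Ys x j)
    (hY : ∀ x j, ∀ Y ∈ Ys x j, (nu B j) ^ x ≤ (((Zs x j).filter (fun Z => Z ⊆ Y)).card : ℝ))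
    (hZ : ∀ x j, ∀ Z ∈ Zs x j, Z.card = x)
    (hT : ∀ x j, 1 ≤ x → x ≤ u → j < u →
      (((Zs x j).filter (fun Z => Z ⊆ T)).card : ℝ) ≤ (nu B j) ^ (8 * x)) :
    ∃ (S : Finset (Finset X)) (t : ℕ), S.Nonempty ∧ (∀ Y ∈ S, μ Y ≠ 0) ∧
      (t : ℝ) ≤ Real.exp (-(Real.log B) / 4) * QQ S + 1 ∧ t ≤ u + 1 ∧
      Real.exp (-(t : ℝ)) ≤ ∑ Y ∈ S, μ Y ∧
      ∃ x ≤ u,
        (∃ j ≤ u, (∑ Y ∈ S, μ Y) ^ 2 ≤ 4 * ((u : ℝ) + 1) ^ 2 *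
            ∑ Y ∈ S, ∑ Y' ∈ S, if C x j Y Y' then μ Y * μ Y' else 0) ∨
        (∃ j < u, (∑ Y ∈ S, μ Y) ^ 2 ≤ 4 * ((u : ℝ) + 1) ^ 2 *
            (∑ Y ∈ S, ∑ Y' ∈ S, if D x j Y Y' then μ Y * μ Y' else 0) ∧
          (nu B j) ^ (2 * x) ≤ Real.exp (2 * (t : ℝ)) * (16 * ((u : ℝ) + 1) ^ 3) ^ 2) := by
  sorry

/-- [POT1] -/
theorem QQ_mono (S S' : Finset (Finset X)) (h : S' ⊆ S) (hne : S'.Nonempty) : QQ S ≤ QQ S' := by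
  sorry

/-- [POT2] -/
theorem QQ_le (S : Finset (Finset X)) (u : ℕ) (hne : S.Nonempty) (hc : ∀ Y ∈ S, Y.card = u) :
    QQ S ≤ u ∧ 0 ≤ QQ S := by
  sorry

/-- [POT3] local potential inequality (same `V`, `v' ≥ 2v - x`, convexity). -/
theorem QQ_merge (S S' : Finset (Finset X)) (x : ℕ) (hne : S.Nonempty) (hne' : S'.Nonempty)
    (h : ∀ U ∈ S', ∃ Y ∈ S, ∃ Y' ∈ S, U = Y ∪ Y' ∧ (Y ∩ Y').card = x) :
    (2 : ℝ) * (1 + 1 / 100) * QQ S - 2 * x ≤ QQ S' := by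
  sorry

open Classical in
/-- merged weight -/
noncomputable def mrg (a : Finset X → ℝ) (C : Finset X → Finset X → Prop) : Finset X → ℝ :=
  fun U => ∑ Y, ∑ Y', if C Y Y' ∧ Y ∪ Y' = U then a Y * a Y' else 0

/-- [MRG1] -/
theorem tot_mrg (a : Finset X → ℝ) (C : Finset X → Finset X → Prop) : tot (mrg a C) = pm a C := by
  sorry

open Classical in
/-- [MRG2] the new measure of `T` after merging inside the class `C`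
(`μ' U = (∑_{Y,Y' ∈ S, C, Y ∪ Y' = U} μ Y μ Y') / total`). -/
theorem merge_measure (a μ : Finset X → ℝ) (T : Finset X) (u x t : ℕ) (Θ : ℝ) (S : Finset (Finset X))
    (C : Finset X → Finset X → Prop) (hμ : IsP T u μ) (hle : ∀ Y, μ Y ≤ a Y) (hΘ : 0 < Θ)
    (hS : ∀ Y ∈ S, μ Y ≠ 0) (ht : Real.exp (-(t : ℝ)) ≤ ∑ Y ∈ S, μ Y)
    (hC : ∀ Y Y', C Y Y' → (Y ∩ Y').card = x)
    (hP : (∑ Y ∈ S, μ Y) ^ 2 ≤ Θ * ∑ Y ∈ S, ∑ Y' ∈ S, if C Y Y' then μ Y * μ Y' else 0) :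
    ∃ μ' : Finset X → ℝ, IsP T (2 * u - x) μ' ∧
      (∀ U, μ' U ≤ Real.exp (2 * (t : ℝ)) * Θ * mrg a C U) ∧
      (∀ U, μ' U ≠ 0 → ∃ Y ∈ S, ∃ Y' ∈ S, U = Y ∪ Y' ∧ (Y ∩ Y').card = x) := by
  sorry

/-- [DWN] down move: the claim for larger `K''` covers all `T` with many members of `Zs`.
`b = 1/N` on `Zs`, `N = ν_j^(8x)`, `K'' = ν_j^4 B^2 e^(s/x) ≥ B^6`. -/
theorem down_move (Γ : Subgroup (Equiv.Perm X)) (B q s : ℝ) (hB : Real.exp 100 ≤ B) (hq : 0 < q)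
    (hs : 0 ≤ s)
    (hcl : ∀ K'' : ℝ, B ^ 6 ≤ K'' → Claim Γ q K'') (x j : ℕ) (hx : 1 ≤ x)
    (Zs : Finset (Finset X)) (hZ : ∀ Z ∈ Zs, Z.card = x) (hinv : InvF Γ Zs)
    (hcard : ((Zs.card : ℝ)) * (B ^ 2 * q) ^ x ≤ Real.exp (-s) * (nu B (j + 1)) ^ (2 * x)) :
    ∃ G : Finset (Finset X), InvF Γ G ∧ cost q G ≤ Real.exp (-s / 40) ∧
      ∀ T : Finset X, (nu B j) ^ (8 * x) ≤ ((Zs.filter (fun Z => Z ⊆ T)).card : ℝ) → Cov G T := by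
  sorry

open Classical in
/-- [GEN] generic merging (stages `l < 12`): all pairs with `|Y ∩ Y'| = x`.
`pm ≤ tot a * C(u,x)^2 θ q^x` (Spr with `R Y Z : a Y ≠ 0 ∧ Z ⊆ Y ∧ |Z| = x`),
`C(u,x) B^-x ≤ (1 + 1/B)^u ≤ e^(u/B)`. -/
theorem generic_mass (Γ : Subgroup (Equiv.Perm X)) (B q θ : ℝ) (u x : ℕ) (a : Finset X → ℝ)
    (hB : 2 ≤ B) (hq : 0 < q)
    (hθ : 0 < θ) (ha : ∀ Y, 0 ≤ a Y) (hcard : ∀ Y, a Y ≠ 0 → Y.card = u)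
    (hinv : InvW Γ a) (hspr : Spr Γ a θ q) (htot : tot a ≤ θ) :
    pm a (fun Y Y' => (Y ∩ Y').card = x) ≤ θ ^ 2 * (B ^ 2 * q) ^ x * Real.exp (2 * (u : ℝ) / B) := by
  sorry

open Classical in
/-- [STG] one stage of the tree (global part + step for every `T`). -/
theorem stage (Γ : Subgroup (Equiv.Perm X)) (B q s : ℝ) (hB : Real.exp 100 ≤ B) (hq : 0 < q)
    (hs : 0 ≤ s) (gen : Prop)
    (hcl : ¬ gen → ∀ K'' : ℝ, B ^ 6 ≤ K'' → Claim Γ q K'') (N : Nd X) (hN : Ok Γ (B ^ 2 * q) N) :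
    ∃ (G : Finset (Finset X)) (Ch : Finset (Nd X)), InvF Γ G ∧
      cost q G ≤ Real.exp (-s) + (if gen then 0 else (N.u : ℝ) ^ 2 * Real.exp (-s / 40)) ∧
      Ch.card ≤ 8 * (N.u + 1) ^ 3 ∧ (∀ N' ∈ Ch, Ok Γ (B ^ 2 * q) N' ∧ N'.u ≤ 2 * N.u) ∧
      ∀ (T : Finset X) (μ : Finset X → ℝ), ¬ Cov G T → IsP T N.u μ → (∀ Y, μ Y ≤ N.a Y) →
        ∃ N' ∈ Ch, ∃ (μ' : Finset X → ℝ) (S : Finset (Finset X)) (x t : ℕ),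
          S.Nonempty ∧ (∀ Y ∈ S, μ Y ≠ 0) ∧ (t : ℝ) ≤ Real.exp (-(Real.log B) / 4) * QQ S + 1 ∧
          IsP T N'.u μ' ∧ (∀ Y, μ' Y ≤ N'.a Y) ∧ N'.u + x = 2 * N.u ∧
          (∀ U, μ' U ≠ 0 → ∃ Y ∈ S, ∃ Y' ∈ S, U = Y ∪ Y' ∧ (Y ∩ Y').card = x) ∧
          N'.D ≤ 2 * (N.D + s) + 6 * t + hh N.u + (if gen then 2 * (N.u : ℝ) / B else 0) := by
  sorry

/-- wealth lower bound at stage `l` -/
noncomputable def hl (b : ℝ) (k l : ℕ) : ℝ := 2 ^ l * (k * b) * (1 / 4 + 5 / 8 * (3 / 4 : ℝ) ^ l)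

/-- spending at stage `l` -/
noncomputable def sl (b : ℝ) (k l : ℕ) : ℝ := (3 / 2 : ℝ) ^ l * (k * b / 8)

/-- [NUMH] numerics for the wealth. -/
theorem numH (b : ℝ) (hb : 10000 ≤ b) (k l u : ℕ) (hk : 1 ≤ k) (hu : u ≤ 2 ^ l * k) :
    hl b k (l + 1) ≤ 2 * hl b k l - 2 * sl b k l - 6 - hh u -
      (if l < 12 then 2 * (u : ℝ) / Real.exp (b / 2) else 0) := by
  sorry

/-- [NUMC] numerics for the cost. -/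
theorem numC (b : ℝ) (hb : 10000 ≤ b) (k l u : ℕ) (hk : 1 ≤ k) (hu : u ≤ 2 ^ l * k) :
    Real.exp (-(sl b k l)) + (if l < 12 then 0 else (u : ℝ) ^ 2 * Real.exp (-(sl b k l) / 40)) +
      8 * ((u : ℝ) + 1) ^ 3 * Real.exp (-(k * b * (11 / 10 : ℝ) ^ (l + 1) / 20))
      ≤ Real.exp (-(k * b * (11 / 10 : ℝ) ^ l / 20)) := by
  sorry

/-- [TREE] one induction step: from `Claim` above `K^(3/2)` to `Claim` at `K = B^4`, `B = e^(b/2)`.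
Backward induction on the stage `l` with
`F_l(N) = {T | ∃ μ, IsP T N.u μ, μ ≤ N.a, N.D + 600 e^(-b/8) (N.u - QQ (supp μ)/2) ≤ - hl b k l}`.
Root: `a = w`, `u = k`, `D = - k b` (`tot w * (B^4 q)^k ≤ 1`). -/
theorem tree_step (Γ : Subgroup (Equiv.Perm X)) (q b : ℝ) (hq : 0 < q) (hb : 10000 ≤ b)
    (hcl : ∀ K'' : ℝ, Real.exp (b / 2) ^ 6 ≤ K'' → Claim Γ q K'') : Claim Γ q (Real.exp (b / 2) ^ 4) := by
  sorry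

/-- [BASE] -/
theorem claim_base (Γ : Subgroup (Equiv.Perm X)) (q K : ℝ) (hq : 0 < q) (hK : 1 ≤ K)
    (hX : (Fintype.card X : ℝ) ^ 2 ≤ K) : Claim Γ q K := by
  sorry

/-- [IND] induction: `tree_step` + `claim_base` (exponent 3/2). -/
theorem claim_all (Γ : Subgroup (Equiv.Perm X)) (q K : ℝ) (hq : 0 < q) (hK : Real.exp 20000 ≤ K) :
    Claim Γ q K := by
  sorry

end TAL
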